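import Vale.Agent.P134.H134.Uncond

open scoped InnerProductSpace Laplacian

namespace Vale.Agent.Results.P134.DimFour

/-- De Giorgi's conjecture in all dimensions `n ≤ 4`, without any assumption on limits: a bounded
`C²` solution of `Δ u = u³ - u` on `ℝⁿ` whose derivative in some fixed direction `a` is positive
everywhere is `tanh ((⟨e, x⟩ - c) / √2)` for a unit vector `e` with `⟨e, a⟩ > 0`. -/
theorem result (n : ℕ) (hn : n ≤ 4) (u : EuclideanSpace ℝ (Fin n) → ℝ) (hu : ContDiff ℝ 2 u)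
    (heq : ∀ x, Δ u x = u x ^ 3 - u x) (hb : ∃ M : ℝ, ∀ x, |u x| ≤ M)
    (a : EuclideanSpace ℝ (Fin n)) (ha : ∀ x, 0 < fderiv ℝ u x a) :
    ∃ (e : EuclideanSpace ℝ (Fin n)) (c : ℝ), ‖e‖ = 1 ∧ 0 < ⟪e, a⟫_ℝ ∧
      ∀ x, u x = Real.tanh ((⟪e, x⟫_ℝ - c) / √2) :=
  Vale.Agent.P134.H134.mono_of_S3 Vale.Agent.P134.H134.stS3 hn hu heq hb ha

end Vale.Agent.Results.P134.DimFour
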