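import Vale.Agent.P134.H134.Uncond

open scoped InnerProductSpace Laplacian

namespace Vale.Agent.Results.P134.DimFourStable

/-- (1) De Giorgi's conjecture in all dimensions `n ≤ 4`, without any assumption on limits.
(2) Every bounded stable solution on `ℝ³` is constant `±1` or one-dimensional, without any
assumption on the energy: the second variation of the energy is nonnegative on smooth compactly
supported functions. -/
theorem result :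
    (∀ n : ℕ, n ≤ 4 → ∀ u : EuclideanSpace ℝ (Fin n) → ℝ, ContDiff ℝ 2 u →
      (∀ x, Δ u x = u x ^ 3 - u x) → (∃ M : ℝ, ∀ x, |u x| ≤ M) →
      ∀ a : EuclideanSpace ℝ (Fin n), (∀ x, 0 < fderiv ℝ u x a) →
      ∃ (e : EuclideanSpace ℝ (Fin n)) (c : ℝ), ‖e‖ = 1 ∧ 0 < ⟪e, a⟫_ℝ ∧
        ∀ x, u x = Real.tanh ((⟪e, x⟫_ℝ - c) / √2)) ∧
    (∀ u : EuclideanSpace ℝ (Fin 3) → ℝ, ContDiff ℝ 2 u →
      (∀ x, Δ u x = u x ^ 3 - u x) → (∃ M : ℝ, ∀ x, |u x| ≤ M) →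
      (∀ η : EuclideanSpace ℝ (Fin 3) → ℝ, ContDiff ℝ (⊤ : ℕ∞) η → HasCompactSupport η →
        0 ≤ ∫ x, (‖fderiv ℝ η x‖ ^ 2 + (3 * u x ^ 2 - 1) * η x ^ 2)) →
      (∀ x, u x = 1) ∨ (∀ x, u x = -1) ∨
        ∃ (e : EuclideanSpace ℝ (Fin 3)) (c : ℝ), ‖e‖ = 1 ∧
          ∀ x, u x = Real.tanh ((⟪e, x⟫_ℝ - c) / √2)) :=
  ⟨fun _ hn _ hu heq hb _ ha =>
    Vale.Agent.P134.H134.mono_of_S3 Vale.Agent.P134.H134.stS3 hn hu heq hb ha,
   fun _ hu heq hb hs =>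
    Vale.Agent.P134.H134.stab_of_S3 Vale.Agent.P134.H134.stS3 hu heq hb hs⟩

end Vale.Agent.Results.P134.DimFourStable
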